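import Mathlib
import Crest.Prelude.Def_QuadraticTransport

/-!
# Discrete Fenchel–Young certificate for quadratic optimal maps (helper69)

If a measurable bounded map `T` satisfies `⟪x, y⟫ ≤ ⟪x, T x⟫` for all `x` and all `y` in a measurable
set `Y₀` containing the range of `T`, then `T` is a quadratic optimal map from `ρ` to `ρ.map T`
(`isOptimalMap_of_certificate`), and every other optimal map `S` for the same target satisfies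
`S x ∈ Y₀` and `⟪x, S x⟫ = ⟪x, T x⟫` for `ρ`-almost every `x` (`ae_inner_eq_of_isOptimalMap`).
-/

set_option autoImplicit false

open MeasureTheory
open scoped ENNReal NNReal
open Crest.AnalysisR.OT

namespace Crest.Agent.Helper69.OT

variable {ι : Type*} [Fintype ι]

local notation "𝔼" => EuclideanSpace ℝ ι

/-- `‖v‖ₑ ^ 2` as `ENNReal.ofReal (‖v‖ ^ 2)`. -/
theorem enorm_sq_eq (v : 𝔼) : ‖v‖ₑ ^ 2 = ENNReal.ofReal (‖v‖ ^ 2) := by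
  rw [ENNReal.ofReal_pow (norm_nonneg v), ofReal_norm]

/-- The pointwise inequality behind the certificate. -/
theorem sq_add_sq_le (x s t : 𝔼) (h : inner ℝ x s ≤ inner ℝ x t) :
    ‖x - t‖ ^ 2 + ‖s‖ ^ 2 ≤ ‖x - s‖ ^ 2 + ‖t‖ ^ 2 := by
  have h1 := norm_sub_sq_real x t
  have h2 := norm_sub_sq_real x s
  linarith

theorem enorm_sq_add_le (x s t : 𝔼) (h : inner ℝ x s ≤ inner ℝ x t) :
    ‖x - t‖ₑ ^ 2 + ‖s‖ₑ ^ 2 ≤ ‖x - s‖ₑ ^ 2 + ‖t‖ₑ ^ 2 := by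
  rw [enorm_sq_eq, enorm_sq_eq, enorm_sq_eq, enorm_sq_eq,
    ← ENNReal.ofReal_add (by positivity) (by positivity),
    ← ENNReal.ofReal_add (by positivity) (by positivity)]
  exact ENNReal.ofReal_le_ofReal (sq_add_sq_le x s t h)

theorem inner_eq_of_enorm_sq_add_eq (x s t : 𝔼)
    (h : ‖x - t‖ₑ ^ 2 + ‖s‖ₑ ^ 2 = ‖x - s‖ₑ ^ 2 + ‖t‖ₑ ^ 2) : inner ℝ x s = inner ℝ x t := by
  rw [enorm_sq_eq, enorm_sq_eq, enorm_sq_eq, enorm_sq_eq,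
    ← ENNReal.ofReal_add (by positivity) (by positivity),
    ← ENNReal.ofReal_add (by positivity) (by positivity)] at h
  have h' := (ENNReal.ofReal_eq_ofReal_iff (by positivity) (by positivity)).1 h
  have h1 := norm_sub_sq_real x t
  have h2 := norm_sub_sq_real x s
  linarith

theorem measurable_enorm_sq : Measurable (fun y : 𝔼 => ‖y‖ₑ ^ 2) :=
  measurable_enorm.pow_const 2

theorem measurable_enorm_sq_comp {S : 𝔼 → 𝔼} (hS : Measurable S) :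
    Measurable (fun x : 𝔼 => ‖S x‖ₑ ^ 2) :=
  hS.enorm.pow_const 2

theorem measurable_cost {S : 𝔼 → 𝔼} (hS : Measurable S) :
    Measurable (fun x : 𝔼 => ‖x - S x‖ₑ ^ 2) :=
  (measurable_id.sub hS).enorm.pow_const 2

/-- If `S` and `T` push `ρ` to the same measure, they have the same second moment. -/
theorem lintegral_enorm_sq_eq_of_map_eq (ρ : Measure 𝔼) {S T : 𝔼 → 𝔼} (hS : Measurable S)
    (hT : Measurable T) (h : ρ.map S = ρ.map T) :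
    ∫⁻ x, ‖S x‖ₑ ^ 2 ∂ρ = ∫⁻ x, ‖T x‖ₑ ^ 2 ∂ρ := by
  rw [← lintegral_map measurable_enorm_sq hS, ← lintegral_map measurable_enorm_sq hT, h]

theorem lintegral_enorm_sq_ne_top (ρ : Measure 𝔼) [IsFiniteMeasure ρ] {T : 𝔼 → 𝔼} (R : ℝ)
    (hR : ∀ x, ‖T x‖ ≤ R) : ∫⁻ x, ‖T x‖ₑ ^ 2 ∂ρ ≠ ∞ := by
  have hle : ∫⁻ x, ‖T x‖ₑ ^ 2 ∂ρ ≤ ∫⁻ _x, ENNReal.ofReal (R ^ 2) ∂ρ := by
    refine lintegral_mono fun x => ?_
    rw [enorm_sq_eq]
    refine ENNReal.ofReal_le_ofReal ?_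
    have := hR x
    have h0 := norm_nonneg (T x)
    nlinarith
  refine ne_top_of_le_ne_top ?_ hle
  rw [lintegral_const]
  exact ENNReal.mul_ne_top ENNReal.ofReal_ne_top (measure_ne_top ρ _)

omit [Fintype ι] in
/-- If `S` pushes `ρ` to the same target as `T`, and `T` takes values in the measurable set `Y₀`,
then `S x ∈ Y₀` for almost every `x`. -/
theorem ae_mem_of_map_eq (ρ : Measure 𝔼) {S T : 𝔼 → 𝔼} (hS : Measurable S) (hT : Measurable T)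
    (h : ρ.map S = ρ.map T) {Y₀ : Set 𝔼} (hY₀ : MeasurableSet Y₀) (hTY : ∀ x, T x ∈ Y₀) :
    ∀ᵐ x ∂ρ, S x ∈ Y₀ := by
  have h1 : ρ.map S Y₀ᶜ = 0 := by
    rw [h, Measure.map_apply hT hY₀.compl]
    have : T ⁻¹' Y₀ᶜ = ∅ := by
      ext x
      simp [hTY x]
    rw [this, measure_empty]
  rw [Measure.map_apply hS hY₀.compl] at h1
  rw [ae_iff]
  exact h1

/-- **Certificate of optimality.** -/
theorem isOptimalMap_of_certificate (ρ : Measure 𝔼) [IsFiniteMeasure ρ] {T : 𝔼 → 𝔼}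
    (hT : Measurable T) {Y₀ : Set 𝔼} (hY₀ : MeasurableSet Y₀) (hTY : ∀ x, T x ∈ Y₀)
    (R : ℝ) (hR : ∀ x, ‖T x‖ ≤ R)
    (hmax : ∀ x, ∀ y ∈ Y₀, inner ℝ x y ≤ inner ℝ x (T x)) :
    IsOptimalMap ρ (ρ.map T) T := by
  refine ⟨hT, rfl, fun S hS hmap => ?_⟩
  have hmem := ae_mem_of_map_eq ρ hS hT hmap hY₀ hTY
  have hle : ∀ᵐ x ∂ρ, ‖x - T x‖ₑ ^ 2 + ‖S x‖ₑ ^ 2 ≤ ‖x - S x‖ₑ ^ 2 + ‖T x‖ₑ ^ 2 := by
    filter_upwards [hmem] with x hx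
    exact enorm_sq_add_le x (S x) (T x) (hmax x (S x) hx)
  have hint := lintegral_mono_ae hle
  rw [lintegral_add_right _ (measurable_enorm_sq_comp hS),
    lintegral_add_right _ (measurable_enorm_sq_comp hT),
    lintegral_enorm_sq_eq_of_map_eq ρ hS hT hmap] at hint
  exact (ENNReal.add_le_add_iff_right (lintegral_enorm_sq_ne_top ρ R hR)).1 hint

/-- **Rigidity of optimal maps under a certificate.** -/
theorem ae_inner_eq_of_isOptimalMap (ρ : Measure 𝔼) [IsFiniteMeasure ρ] {T : 𝔼 → 𝔼}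
    (hT : Measurable T) {Y₀ : Set 𝔼} (hY₀ : MeasurableSet Y₀) (hTY : ∀ x, T x ∈ Y₀)
    (R : ℝ) (hR : ∀ x, ‖T x‖ ≤ R)
    (hmax : ∀ x, ∀ y ∈ Y₀, inner ℝ x y ≤ inner ℝ x (T x))
    (hfin : ∫⁻ x, ‖x - T x‖ₑ ^ 2 ∂ρ ≠ ∞)
    {S : 𝔼 → 𝔼} (hS : IsOptimalMap ρ (ρ.map T) S) :
    ∀ᵐ x ∂ρ, S x ∈ Y₀ ∧ inner ℝ x (S x) = inner ℝ x (T x) := by
  obtain ⟨hSm, hmap, hopt⟩ := hS
  have hmem := ae_mem_of_map_eq ρ hSm hT hmap hY₀ hTY
  have hle : (fun x => ‖x - T x‖ₑ ^ 2 + ‖S x‖ₑ ^ 2) ≤ᵐ[ρ]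
      (fun x => ‖x - S x‖ₑ ^ 2 + ‖T x‖ₑ ^ 2) := by
    filter_upwards [hmem] with x hx
    exact enorm_sq_add_le x (S x) (T x) (hmax x (S x) hx)
  have hc := lintegral_enorm_sq_eq_of_map_eq ρ hSm hT hmap
  have hcfin := lintegral_enorm_sq_ne_top ρ R hR
  have h1 : ∫⁻ x, ‖x - T x‖ₑ ^ 2 + ‖S x‖ₑ ^ 2 ∂ρ ≠ ∞ := by
    rw [lintegral_add_right _ (measurable_enorm_sq_comp hSm), hc]
    exact ENNReal.add_ne_top.2 ⟨hfin, hcfin⟩
  have h2 : ∫⁻ x, ‖x - S x‖ₑ ^ 2 + ‖T x‖ₑ ^ 2 ∂ρ ≤ ∫⁻ x, ‖x - T x‖ₑ ^ 2 + ‖S x‖ₑ ^ 2 ∂ρ := by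
    rw [lintegral_add_right _ (measurable_enorm_sq_comp hSm),
      lintegral_add_right _ (measurable_enorm_sq_comp hT), hc]
    exact add_le_add (hopt T hT rfl) le_rfl
  have hmeas : AEMeasurable (fun x => ‖x - S x‖ₑ ^ 2 + ‖T x‖ₑ ^ 2) ρ :=
    ((measurable_cost hSm).add (measurable_enorm_sq_comp hT)).aemeasurable
  have heq := ae_eq_of_ae_le_of_lintegral_le hle h1 hmeas h2
  filter_upwards [hmem, heq] with x hx hxe
  exact ⟨hx, inner_eq_of_enorm_sq_add_eq x (S x) (T x) hxe⟩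

end Crest.Agent.Helper69.OT
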