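import Mathlib
import Crest.Prelude.Def_QuadraticTransport

/-!
# The cube `[-1,1]^ι` in Euclidean space and its uniform probability measure (helper69)

Boxes and their volumes, the uniform probability `rho ι = uniformProbOn (cube ι)`, null
hyperplanes, and invariance of `rho` under coordinate sign flips.
-/

set_option autoImplicit false
set_option linter.unusedSectionVars false

open MeasureTheory
open scoped ENNReal NNReal
open Crest.AnalysisR.OT

namespace Crest.Agent.Helper69.OT

variable {ι : Type*} [Fintype ι]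

/-- The cube `[-1,1]^ι` in Euclidean space. -/
def cube (ι : Type*) [Fintype ι] : Set (EuclideanSpace ℝ ι) := {x | ∀ i, |x i| ≤ 1}

/-- A coordinate box in Euclidean space. -/
def box (a b : ι → ℝ) : Set (EuclideanSpace ℝ ι) := {x | ∀ i, a i ≤ x i ∧ x i ≤ b i}

theorem box_eq_preimage (a b : ι → ℝ) :
    box a b = (WithLp.ofLp : EuclideanSpace ℝ ι → ι → ℝ) ⁻¹' Set.Icc a b := by
  ext x
  simp only [box, Set.mem_ofPred_eq, Set.mem_preimage, Set.mem_Icc, Pi.le_def]
  exact forall_and

theorem volume_box (a b : ι → ℝ) : volume (box a b) = ∏ i, ENNReal.ofReal (b i - a i) := by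
  rw [box_eq_preimage, (PiLp.volume_preserving_ofLp ι).measure_preimage
    measurableSet_Icc.nullMeasurableSet, Real.volume_Icc_pi]

theorem measurableSet_box (a b : ι → ℝ) : MeasurableSet (box a b) := by
  rw [box_eq_preimage]
  exact (PiLp.volume_preserving_ofLp ι).measurable measurableSet_Icc

theorem cube_eq_box : cube ι = box (fun _ => -1) (fun _ => 1) := by
  ext x
  simp only [cube, box, Set.mem_ofPred_eq, abs_le]

theorem measurableSet_cube : MeasurableSet (cube ι) := by
  rw [cube_eq_box]; exact measurableSet_box _ _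

theorem volume_cube : volume (cube ι) = 2 ^ Fintype.card ι := by
  rw [cube_eq_box, volume_box]
  simp
  norm_num

theorem volume_cube_ne_zero : volume (cube ι) ≠ 0 := by
  rw [volume_cube]; positivity

theorem volume_cube_ne_top : volume (cube ι) ≠ ∞ := by
  rw [volume_cube]; exact ENNReal.pow_ne_top ENNReal.ofNat_ne_top

/-- The uniform probability measure on the cube. -/
noncomputable abbrev rho (ι : Type*) [Fintype ι] : Measure (EuclideanSpace ℝ ι) :=
  uniformProbOn (cube ι)

theorem rho_apply (s : Set (EuclideanSpace ℝ ι)) (hs : MeasurableSet s) :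
    rho ι s = (volume (cube ι))⁻¹ * volume (s ∩ cube ι) := by
  simp [rho, uniformProbOn, Measure.restrict_apply hs]

instance : IsProbabilityMeasure (rho ι) := by
  constructor
  rw [rho_apply _ MeasurableSet.univ, Set.univ_inter]
  exact ENNReal.inv_mul_cancel volume_cube_ne_zero volume_cube_ne_top

theorem rho_absolutelyContinuous : rho ι ≪ (volume : Measure (EuclideanSpace ℝ ι)) := by
  refine Measure.AbsolutelyContinuous.mk fun s hs h => ?_
  rw [rho_apply s hs]
  have : volume (s ∩ cube ι) = 0 := measure_mono_null Set.inter_subset_left h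
  rw [this, mul_zero]

theorem rho_compl_cube : rho ι (cube ι)ᶜ = 0 := by
  rw [rho_apply _ measurableSet_cube.compl]
  simp

theorem ae_mem_cube : ∀ᵐ x ∂(rho ι), x ∈ cube ι := by
  rw [ae_iff]
  exact rho_compl_cube

theorem rho_box {a b : ι → ℝ} (ha : ∀ i, -1 ≤ a i) (hb : ∀ i, b i ≤ 1) :
    rho ι (box a b) = (2 ^ Fintype.card ι)⁻¹ * ∏ i, ENNReal.ofReal (b i - a i) := by
  rw [rho_apply _ (measurableSet_box a b), volume_cube]
  have : box a b ∩ cube ι = box a b := by
    apply Set.inter_eq_left.2
    intro x hx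
    rw [cube_eq_box]
    intro i
    exact ⟨(ha i).trans (hx i).1, (hx i).2.trans (hb i)⟩
  rw [this, volume_box]

theorem norm_sq_le_of_mem_cube {x : EuclideanSpace ℝ ι} (hx : x ∈ cube ι) :
    ‖x‖ ^ 2 ≤ Fintype.card ι := by
  rw [EuclideanSpace.norm_eq, Real.sq_sqrt (Finset.sum_nonneg fun i _ => by positivity)]
  calc ∑ i, ‖x i‖ ^ 2 ≤ ∑ _i : ι, (1 : ℝ) := by
        refine Finset.sum_le_sum fun i _ => ?_
        have := hx i
        rw [Real.norm_eq_abs]
        have h0 := abs_nonneg (x i)
        nlinarith
    _ = Fintype.card ι := by simp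

/-- Hyperplanes through the origin are `rho`-null. -/
theorem rho_hyperplane (v : EuclideanSpace ℝ ι) (hv : v ≠ 0) :
    rho ι {x | inner ℝ v x = 0} = 0 := by
  apply rho_absolutelyContinuous
  have : {x : EuclideanSpace ℝ ι | inner ℝ v x = 0} = ((ℝ ∙ v)ᗮ : Submodule ℝ (EuclideanSpace ℝ ι)) := by
    ext x
    simp [Submodule.mem_orthogonal_singleton_iff_inner_right]
  rw [this]
  apply Measure.addHaar_submodule
  intro h
  have hmem : v ∈ ((ℝ ∙ v)ᗮ : Submodule ℝ (EuclideanSpace ℝ ι)) := by rw [h]; trivial
  rw [Submodule.mem_orthogonal_singleton_iff_inner_right] at hmem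
  exact hv (inner_self_eq_zero.1 hmem)

/-- The coordinate sign flip at index `j`, as a linear isometry equivalence. -/
noncomputable def flip [DecidableEq ι] (j : ι) : EuclideanSpace ℝ ι ≃ₗᵢ[ℝ] EuclideanSpace ℝ ι :=
  LinearIsometryEquiv.piLpCongrRight 2
    (fun i => if i = j then LinearIsometryEquiv.neg ℝ else LinearIsometryEquiv.refl ℝ ℝ)

theorem flip_apply [DecidableEq ι] (j : ι) (x : EuclideanSpace ℝ ι) (i : ι) :
    (flip j x) i = if i = j then - x i else x i := by
  simp only [flip, LinearIsometryEquiv.piLpCongrRight_apply]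
  by_cases h : i = j <;> simp [h]

theorem flip_preimage_cube [DecidableEq ι] (j : ι) : (flip j) ⁻¹' (cube ι) = cube ι := by
  ext x
  simp only [cube, Set.mem_preimage, Set.mem_ofPred_eq, flip_apply]
  refine forall_congr' fun i => ?_
  by_cases h : i = j <;> simp [h]

theorem rho_map_flip [DecidableEq ι] (j : ι) : (rho ι).map (flip j) = rho ι := by
  have h1 := ((flip j).measurePreserving.restrict_preimage (measurableSet_cube (ι := ι))).map_eq
  rw [flip_preimage_cube] at h1
  simp only [rho, uniformProbOn]
  rw [Measure.map_smul, h1]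

end Crest.Agent.Helper69.OT
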