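import Crest.Agent.Helper69.OT.Sliver

/-!
# Optimality and rigidity of the sliver maps (helper69)

`T n s = tmap n s (s • e1)` is the gradient of `max (x 0, -x 0, s * x 1)`; it is a quadratic
optimal map from `rho` to its push-forward, and every optimal map for that target agrees with it
`rho`-almost everywhere.
-/

set_option autoImplicit false
set_option linter.unusedSectionVars false

open MeasureTheory
open scoped ENNReal NNReal
open Crest.AnalysisR.OT

namespace Crest.Agent.Helper69.OT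

variable {n : ℕ}

/-- The optimal map of the sliver configuration with slope `s`. -/
noncomputable def T (n : ℕ) (s : ℝ) :
    EuclideanSpace ℝ (Fin (n + 2)) → EuclideanSpace ℝ (Fin (n + 2)) :=
  tmap n s (s • e1 n)

/-- The three sites. -/
def sites (n : ℕ) (s : ℝ) : Set (EuclideanSpace ℝ (Fin (n + 2))) := {s • e1 n, e0 n, - e0 n}

theorem measurable_T (s : ℝ) : Measurable (T n s) := measurable_tmap s _

theorem T_mem_sites (s : ℝ) (x : EuclideanSpace ℝ (Fin (n + 2))) : T n s x ∈ sites n s :=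
  tmap_mem s _ x

theorem measurableSet_sites (s : ℝ) : MeasurableSet (sites n s) := by
  unfold sites
  exact (Set.toFinite _).measurableSet

theorem norm_le_one_of_mem_sites (s : ℝ) (hs : |s| ≤ 1) {y : EuclideanSpace ℝ (Fin (n + 2))}
    (hy : y ∈ sites n s) : ‖y‖ ≤ 1 := by
  simp only [sites, Set.mem_insert_iff, Set.mem_singleton_iff] at hy
  rcases hy with rfl | rfl | rfl
  · rw [norm_smul, norm_e1, mul_one, Real.norm_eq_abs]; exact hs
  · simp
  · simp

theorem norm_T_le (s : ℝ) (hs : |s| ≤ 1) (x : EuclideanSpace ℝ (Fin (n + 2))) : ‖T n s x‖ ≤ 1 :=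
  norm_le_one_of_mem_sites s hs (T_mem_sites s x)

theorem inner_le_inner_T (s : ℝ) (x : EuclideanSpace ℝ (Fin (n + 2))) :
    ∀ y ∈ sites n s, inner ℝ x y ≤ inner ℝ x (T n s x) := by
  intro y hy
  have h1 := le_abs_self (x 0)
  have h2 := neg_abs_le (x 0)
  simp only [sites, Set.mem_insert_iff, Set.mem_singleton_iff] at hy
  unfold T tmap
  by_cases hs : x ∈ sliver n s
  · rw [if_pos hs]
    have hs' : |x 0| < s * x 1 := hs
    rcases hy with rfl | rfl | rfl <;> simp [inner_smul_right, inner_neg_right] <;> linarith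
  · rw [if_neg hs]
    have hs' : s * x 1 ≤ |x 0| := not_lt.1 hs
    by_cases hp : x ∈ halfPos n
    · rw [if_pos hp]
      have hp' : 0 ≤ x 0 := hp
      rw [abs_of_nonneg hp'] at hs'
      rcases hy with rfl | rfl | rfl <;> simp [inner_smul_right, inner_neg_right] <;> linarith
    · rw [if_neg hp]
      have hp' : x 0 < 0 := not_le.1 hp
      rw [abs_of_neg hp'] at hs'
      rcases hy with rfl | rfl | rfl <;> simp [inner_smul_right, inner_neg_right] <;> linarith

theorem eq_T_of_inner_eq (s : ℝ) (x : EuclideanSpace ℝ (Fin (n + 2))) (hx0 : x 0 ≠ 0)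
    (hx1 : x 0 - s * x 1 ≠ 0) (hx2 : x 0 + s * x 1 ≠ 0)
    (y : EuclideanSpace ℝ (Fin (n + 2))) (hy : y ∈ sites n s)
    (h : inner ℝ x y = inner ℝ x (T n s x)) : y = T n s x := by
  simp only [sites, Set.mem_insert_iff, Set.mem_singleton_iff] at hy
  unfold T tmap at h ⊢
  by_cases hs : x ∈ sliver n s
  · rw [if_pos hs] at h ⊢
    rcases hy with rfl | rfl | rfl
    · rfl
    · simp [inner_smul_right] at h
      exact absurd (by linarith) hx1
    · simp [inner_smul_right, inner_neg_right] at h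
      exact absurd (by linarith) hx2
  · rw [if_neg hs] at h ⊢
    by_cases hp : x ∈ halfPos n
    · rw [if_pos hp] at h ⊢
      rcases hy with rfl | rfl | rfl
      · simp [inner_smul_right] at h
        exact absurd (by linarith) hx1
      · rfl
      · simp [inner_neg_right] at h
        exact absurd (by linarith) hx0
    · rw [if_neg hp] at h ⊢
      rcases hy with rfl | rfl | rfl
      · simp [inner_smul_right, inner_neg_right] at h
        exact absurd (by linarith) hx2
      · simp [inner_neg_right] at h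
        exact absurd (by linarith) hx0
      · rfl

/-- The quadratic cost of a bounded map from the uniform measure on the cube is finite. -/
theorem lintegral_cost_ne_top {ι : Type*} [Fintype ι]
    {S : EuclideanSpace ℝ ι → EuclideanSpace ℝ ι} (R : ℝ) (hR : ∀ x, ‖S x‖ ≤ R) :
    ∫⁻ x, ‖x - S x‖ₑ ^ 2 ∂(rho ι) ≠ ∞ := by
  have hle : ∫⁻ x, ‖x - S x‖ₑ ^ 2 ∂(rho ι)
      ≤ ∫⁻ _x, ENNReal.ofReal (2 * Fintype.card ι + 2 * R ^ 2) ∂(rho ι) := by
    refine lintegral_mono_ae ?_
    filter_upwards [ae_mem_cube] with x hx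
    rw [enorm_sq_eq]
    refine ENNReal.ofReal_le_ofReal ?_
    have h1 := norm_sq_le_of_mem_cube hx
    have h2 := norm_sub_le x (S x)
    have h3 := hR x
    have h4 := norm_nonneg (S x)
    have h5 := norm_nonneg x
    have h6 := norm_nonneg (x - S x)
    have h7 : ‖x - S x‖ ^ 2 ≤ (‖x‖ + ‖S x‖) ^ 2 := pow_le_pow_left₀ h6 h2 2
    have h8 : ‖S x‖ ^ 2 ≤ R ^ 2 := pow_le_pow_left₀ h4 h3 2
    nlinarith [sq_nonneg (‖x‖ - ‖S x‖)]
  refine ne_top_of_le_ne_top ?_ hle
  rw [lintegral_const]
  exact ENNReal.mul_ne_top ENNReal.ofReal_ne_top (measure_ne_top _ _)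

theorem isOptimalMap_T (s : ℝ) (hs : |s| ≤ 1) :
    IsOptimalMap (rho (Fin (n + 2))) ((rho (Fin (n + 2))).map (T n s)) (T n s) :=
  isOptimalMap_of_certificate (rho (Fin (n + 2))) (measurable_T s) (measurableSet_sites s)
    (T_mem_sites s) 1 (norm_T_le s hs) (inner_le_inner_T s)

theorem e0_add_smul_ne_zero (c : ℝ) : e0 n + c • e1 n ≠ 0 := by
  intro h
  have := congrArg (fun v : EuclideanSpace ℝ (Fin (n + 2)) => v 0) h
  simp at this

theorem inner_e0_add_smul (c : ℝ) (x : EuclideanSpace ℝ (Fin (n + 2))) :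
    inner ℝ (e0 n + c • e1 n) x = x 0 + c * x 1 := by
  rw [real_inner_comm, inner_add_right, inner_smul_right, inner_e0, inner_e1]

/-- Almost every point of the cube is off the three tie hyperplanes. -/
theorem ae_generic (s : ℝ) : ∀ᵐ x ∂(rho (Fin (n + 2))),
    x 0 ≠ 0 ∧ x 0 - s * x 1 ≠ 0 ∧ x 0 + s * x 1 ≠ 0 := by
  have h0 := rho_hyperplane (e0 n + (0 : ℝ) • e1 n) (e0_add_smul_ne_zero 0)
  have h1 := rho_hyperplane (e0 n + (-s) • e1 n) (e0_add_smul_ne_zero (-s))
  have h2 := rho_hyperplane (e0 n + s • e1 n) (e0_add_smul_ne_zero s)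
  simp only [inner_e0_add_smul] at h0 h1 h2
  have h0' : ∀ᵐ x ∂(rho (Fin (n + 2))), ¬ (x 0 + 0 * x 1 = 0) := by
    rw [ae_iff]; simpa using h0
  have h1' : ∀ᵐ x ∂(rho (Fin (n + 2))), ¬ (x 0 + -s * x 1 = 0) := by
    rw [ae_iff]; simpa using h1
  have h2' : ∀ᵐ x ∂(rho (Fin (n + 2))), ¬ (x 0 + s * x 1 = 0) := by
    rw [ae_iff]; simpa using h2
  filter_upwards [h0', h1', h2'] with x hx0 hx1 hx2
  refine ⟨fun h => hx0 (by rw [h]; ring), fun h => hx1 (by linarith), hx2⟩

/-- **Rigidity**: every optimal map for the target of `T n s` equals `T n s` almost everywhere. -/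
theorem ae_eq_T (s : ℝ) (hs : |s| ≤ 1)
    {S : EuclideanSpace ℝ (Fin (n + 2)) → EuclideanSpace ℝ (Fin (n + 2))}
    (hS : IsOptimalMap (rho (Fin (n + 2))) ((rho (Fin (n + 2))).map (T n s)) S) :
    S =ᵐ[rho (Fin (n + 2))] T n s := by
  have h := ae_inner_eq_of_isOptimalMap (rho (Fin (n + 2))) (measurable_T s) (measurableSet_sites s)
    (T_mem_sites s) 1 (norm_T_le s hs) (inner_le_inner_T s)
    (lintegral_cost_ne_top 1 (norm_T_le s hs)) hS
  filter_upwards [h, ae_generic s] with x hx hg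
  exact eq_T_of_inner_eq s x hg.1 hg.2.1 hg.2.2 (S x) hx.1 hx.2

end Crest.Agent.Helper69.OT
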