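import Crest.Agent.Helper69.OT.Opt

/-!
# Sharpness of the exponent one third: the three-atom sliver example (helper69)

`μ = rho.map (T n ε)` and `ν = rho.map (T n (-ε))` are three-atomic probability measures on the
cube whose optimal maps differ on the two slivers (mass `m ≥ ε/16` each, distance `≥ 1`), while the
coupling that matches the atoms costs `4 ε² m`.
-/

set_option autoImplicit false
set_option linter.unusedSectionVars false

open MeasureTheory
open scoped ENNReal NNReal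
open Crest.AnalysisR.OT

namespace Crest.Agent.Helper69.OT


/-- The real-variable endgame: for `α > 1/3` a small `ε` beats any constant. -/
theorem exists_eps (α : ℝ) (hα : 1 / 3 < α) (C : ℝ) (hC : 0 ≤ C) :
    ∃ ε : ℝ, 0 < ε ∧ ε ≤ 1 / 2 ∧
      ∀ t : ℝ, ε / 16 ≤ t → t ≤ 1 → C * (4 * ε ^ 2 * t) ^ α < t := by
  set β : ℝ := α - 1 / 3 with hβ
  have hβpos : 0 < β := by linarith
  set η : ℝ := (1 / (11 * C + 1)) ^ β⁻¹ with hη
  have hbase_pos : 0 < 1 / (11 * C + 1) := by positivity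
  have hbase_le : 1 / (11 * C + 1) ≤ 1 := by
    rw [div_le_one (by positivity)]; linarith
  have hηpos : 0 < η := Real.rpow_pos_of_pos hbase_pos _
  have hηle : η ≤ 1 := Real.rpow_le_one hbase_pos.le hbase_le (inv_nonneg.2 hβpos.le)
  have hηβ : η ^ β = 1 / (11 * C + 1) := Real.rpow_inv_rpow hbase_pos.le hβpos.ne'
  refine ⟨η / 2, by linarith, by linarith, fun t ht1 ht2 => ?_⟩
  have htpos : 0 < t := by linarith
  set u : ℝ := 4 * (η / 2) ^ 2 * t with hu
  have hupos : 0 < u := by positivity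
  have hu_le_eta : u ≤ η := by
    have : u = η * (η * t) := by rw [hu]; ring
    rw [this]
    have : η * t ≤ 1 := by nlinarith
    nlinarith
  have hu_le_cube : u ≤ (11 * t) ^ 3 := by
    have h1 : η ≤ 32 * t := by linarith
    have : u = η ^ 2 * t := by rw [hu]; ring
    rw [this]
    have h2 : η ^ 2 ≤ (32 * t) ^ 2 := pow_le_pow_left₀ hηpos.le h1 2
    nlinarith [pow_pos htpos 3, pow_pos htpos 2]
  have hsplit : u ^ α = u ^ (1 / 3 : ℝ) * u ^ β := by
    rw [← Real.rpow_add hupos]; congr 1; rw [hβ]; ring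
  have h3 : u ^ (1 / 3 : ℝ) ≤ 11 * t := by
    have h := Real.rpow_le_rpow hupos.le hu_le_cube (by norm_num : (0 : ℝ) ≤ 1 / 3)
    have h' : ((11 * t) ^ 3) ^ (1 / 3 : ℝ) = 11 * t := by
      have := Real.pow_rpow_inv_natCast (by positivity : (0 : ℝ) ≤ 11 * t) (by norm_num : (3 : ℕ) ≠ 0)
      simpa using this
    rw [h'] at h
    exact h
  have h4 : u ^ β ≤ 1 / (11 * C + 1) := by
    rw [← hηβ]
    exact Real.rpow_le_rpow hupos.le hu_le_eta hβpos.le
  have h5 : 0 ≤ u ^ (1 / 3 : ℝ) := Real.rpow_nonneg hupos.le _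
  have h6 : 0 ≤ u ^ β := Real.rpow_nonneg hupos.le _
  rw [hsplit]
  have h7 : u ^ (1 / 3 : ℝ) * u ^ β ≤ 11 * t * (1 / (11 * C + 1)) :=
    mul_le_mul h3 h4 h6 (by positivity)
  have h8 : C * (u ^ (1 / 3 : ℝ) * u ^ β) ≤ C * (11 * t * (1 / (11 * C + 1))) :=
    mul_le_mul_of_nonneg_left h7 hC
  have h9 : C * (11 * t * (1 / (11 * C + 1))) < t := by
    have : C * (11 * t * (1 / (11 * C + 1))) = t * (11 * C / (11 * C + 1)) := by
      field_simp
    rw [this]
    have : 11 * C / (11 * C + 1) < 1 := by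
      rw [div_lt_one (by positivity)]; linarith
    nlinarith
  linarith


variable {n : ℕ}

theorem sites_subset_cube (s : ℝ) (hs : |s| ≤ 1) : sites n s ⊆ cube (Fin (n + 2)) := by
  intro y hy i
  have h1 := PiLp.norm_apply_le y i
  have h2 := norm_le_one_of_mem_sites s hs hy
  rw [Real.norm_eq_abs] at h1
  exact h1.trans h2

theorem isProbabilityOn_map_T (s : ℝ) (hs : |s| ≤ 1) :
    IsProbabilityOn (cube (Fin (n + 2))) ((rho (Fin (n + 2))).map (T n s)) := by
  refine ⟨Measure.isProbabilityMeasure_map (measurable_T s).aemeasurable, ?_⟩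
  rw [Measure.map_apply (measurable_T s) measurableSet_cube.compl]
  have : T n s ⁻¹' (cube (Fin (n + 2)))ᶜ = ∅ := by
    ext x
    simp only [Set.mem_preimage, Set.mem_compl_iff, Set.mem_empty_iff_false, iff_false, not_not]
    exact sites_subset_cube s hs (T_mem_sites s x)
  rw [this, measure_empty]

/-- The coupling partner of `T n ε`: same cells, sliver value `(-ε) • e1`. -/
noncomputable def G (n : ℕ) (ε : ℝ) :
    EuclideanSpace ℝ (Fin (n + 2)) → EuclideanSpace ℝ (Fin (n + 2)) :=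
  tmap n ε ((-ε) • e1 n)

theorem measurable_G (ε : ℝ) : Measurable (G n ε) := measurable_tmap ε _

theorem G_eq (ε : ℝ) : G n ε = T n (-ε) ∘ (flip (1 : Fin (n + 2))) := by
  funext x
  have h1 : (flip (1 : Fin (n + 2)) x) ∈ sliver n (-ε) ↔ x ∈ sliver n ε := by
    simp [sliver, flip_apply]
  have h2 : (flip (1 : Fin (n + 2)) x) ∈ halfPos n ↔ x ∈ halfPos n := by
    simp [halfPos, flip_apply]
  simp only [G, T, tmap, Function.comp]
  by_cases hs : x ∈ sliver n ε
  · rw [if_pos hs, if_pos (h1.2 hs)]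
  · rw [if_neg hs, if_neg (fun h => hs (h1.1 h))]
    by_cases hp : x ∈ halfPos n
    · rw [if_pos hp, if_pos (h2.2 hp)]
    · rw [if_neg hp, if_neg (fun h => hp (h2.1 h))]

theorem map_G (ε : ℝ) :
    (rho (Fin (n + 2))).map (G n ε) = (rho (Fin (n + 2))).map (T n (-ε)) := by
  rw [G_eq, ← Measure.map_map (measurable_T (-ε)) (flip (1 : Fin (n + 2))).continuous.measurable,
    rho_map_flip]

theorem enorm_sq_T_sub_G_le (ε : ℝ) (x : EuclideanSpace ℝ (Fin (n + 2))) :
    ‖T n ε x - G n ε x‖ₑ ^ 2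
      ≤ (sliver n ε).indicator (fun _ => ENNReal.ofReal (4 * ε ^ 2)) x := by
  by_cases hx : x ∈ sliver n ε
  · rw [Set.indicator_of_mem hx, enorm_sq_eq]
    refine ENNReal.ofReal_le_ofReal ?_
    have h1 : T n ε x - G n ε x = (2 * ε) • e1 n := by
      simp only [T, G, tmap, if_pos hx]
      rw [← sub_smul]; congr 1; ring
    rw [h1, norm_smul, norm_e1, mul_one, Real.norm_eq_abs, sq_abs]
    nlinarith
  · have h1 : T n ε x - G n ε x = 0 := by
      simp only [T, G, tmap, if_neg hx, sub_self]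
    rw [h1]
    simp

theorem one_le_enorm_sq_T_sub_T (ε : ℝ) (hε : 0 < ε) (x : EuclideanSpace ℝ (Fin (n + 2))) :
    (sliver n ε).indicator (fun _ => (1 : ℝ≥0∞)) x ≤ ‖T n ε x - T n (-ε) x‖ₑ ^ 2 := by
  by_cases hx : x ∈ sliver n ε
  · rw [Set.indicator_of_mem hx, enorm_sq_eq, ← ENNReal.ofReal_one]
    refine ENNReal.ofReal_le_ofReal ?_
    have hx' : |x 0| < ε * x 1 := hx
    have hnot : x ∉ sliver n (-ε) := by
      show ¬ (|x 0| < -ε * x 1)
      have := abs_nonneg (x 0)
      rw [not_lt]; nlinarith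
    have hcoord : |(T n ε x - T n (-ε) x) 0| = 1 := by
      simp only [T, tmap, if_pos hx, if_neg hnot]
      split_ifs <;> simp
    have h2 := PiLp.norm_apply_le (T n ε x - T n (-ε) x) 0
    rw [Real.norm_eq_abs, hcoord] at h2
    nlinarith
  · rw [Set.indicator_of_notMem hx]
    simp

/-- **Sharpness of the exponent 1/3** on the cube `[-1,1]^(n+2)`. -/
theorem sharp (n : ℕ) (α : ℝ) (hα : 1 / 3 < α) (C : ℝ≥0) :
    ∃ μ ν : Measure (EuclideanSpace ℝ (Fin (n + 2))),
      IsProbabilityOn (cube (Fin (n + 2))) μ ∧ IsProbabilityOn (cube (Fin (n + 2))) ν ∧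
      IsThreeAtomic μ ∧ IsThreeAtomic ν ∧
      (∃ T, IsOptimalMap (rho (Fin (n + 2))) μ T) ∧
      (∃ T, IsOptimalMap (rho (Fin (n + 2))) ν T) ∧
      ∀ Tμ Tν : EuclideanSpace ℝ (Fin (n + 2)) → EuclideanSpace ℝ (Fin (n + 2)),
        IsOptimalMap (rho (Fin (n + 2))) μ Tμ → IsOptimalMap (rho (Fin (n + 2))) ν Tν →
        ∃ π : Measure (EuclideanSpace ℝ (Fin (n + 2)) × EuclideanSpace ℝ (Fin (n + 2))),
          IsPairCoupling μ ν π ∧
          (C : ℝ≥0∞) * quadCost π ^ α
            < ∫⁻ x, ‖Tμ x - Tν x‖ₑ ^ 2 ∂(rho (Fin (n + 2))) := by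
  obtain ⟨ε, hε, hε', hineq⟩ := exists_eps α hα C C.coe_nonneg
  have habs : |ε| ≤ 1 := by rw [abs_of_pos hε]; linarith
  have habs' : |(-ε)| ≤ 1 := by rw [abs_neg]; exact habs
  have habs2 : |ε| ≤ 1 / 2 := by rw [abs_of_pos hε]; exact hε'
  refine ⟨(rho (Fin (n + 2))).map (T n ε), (rho (Fin (n + 2))).map (T n (-ε)),
    isProbabilityOn_map_T ε habs, isProbabilityOn_map_T (-ε) habs', ?_, ?_,
    ⟨T n ε, isOptimalMap_T ε habs⟩, ⟨T n (-ε), isOptimalMap_T (-ε) habs'⟩, ?_⟩
  · rw [T, map_tmap]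
    exact isThreeAtomic_of_weights _ (by simp) _ _ _ (rho_sliver_ne_zero ε hε hε')
      (rho_cellP_ne_zero ε habs2) (rho_cellM_ne_zero ε habs2) (measure_ne_top _ _)
      (measure_ne_top _ _) (measure_ne_top _ _)
  · rw [← map_G, G, map_tmap]
    exact isThreeAtomic_of_weights _ (by simp) _ _ _ (rho_sliver_ne_zero ε hε hε')
      (rho_cellP_ne_zero ε habs2) (rho_cellM_ne_zero ε habs2) (measure_ne_top _ _)
      (measure_ne_top _ _) (measure_ne_top _ _)
  · intro Tμ Tν hTμ hTν
    have hμ := ae_eq_T ε habs hTμ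
    have hν := ae_eq_T (-ε) habs' hTν
    have hpair : Measurable (fun x => (T n ε x, G n ε x)) :=
      (measurable_T ε).prodMk (measurable_G ε)
    refine ⟨(rho (Fin (n + 2))).map (fun x => (T n ε x, G n ε x)), ⟨?_, ?_⟩, ?_⟩
    · rw [Measure.map_map measurable_fst hpair]
      rfl
    · rw [Measure.map_map measurable_snd hpair]
      exact map_G ε
    · set m : ℝ≥0∞ := rho (Fin (n + 2)) (sliver n ε) with hm
      have hcost : quadCost ((rho (Fin (n + 2))).map (fun x => (T n ε x, G n ε x)))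
          ≤ ENNReal.ofReal (4 * ε ^ 2) * m := by
        unfold quadCost
        have hmeas : Measurable (fun p : EuclideanSpace ℝ (Fin (n + 2)) ×
            EuclideanSpace ℝ (Fin (n + 2)) => ‖p.1 - p.2‖ₑ ^ 2) :=
          (measurable_fst.sub measurable_snd).enorm.pow_const 2
        rw [lintegral_map hmeas hpair]
        calc ∫⁻ x, ‖T n ε x - G n ε x‖ₑ ^ 2 ∂(rho (Fin (n + 2)))
            ≤ ∫⁻ x, (sliver n ε).indicator (fun _ => ENNReal.ofReal (4 * ε ^ 2)) x
                ∂(rho (Fin (n + 2))) := lintegral_mono (enorm_sq_T_sub_G_le ε)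
          _ = ENNReal.ofReal (4 * ε ^ 2) * m := by
              rw [lintegral_indicator_const (measurableSet_sliver ε)]
      have hlow : m ≤ ∫⁻ x, ‖Tμ x - Tν x‖ₑ ^ 2 ∂(rho (Fin (n + 2))) := by
        have h1 : ∫⁻ x, ‖Tμ x - Tν x‖ₑ ^ 2 ∂(rho (Fin (n + 2)))
            = ∫⁻ x, ‖T n ε x - T n (-ε) x‖ₑ ^ 2 ∂(rho (Fin (n + 2))) := by
          apply lintegral_congr_ae
          filter_upwards [hμ, hν] with x h1 h2
          rw [h1, h2]
        rw [h1]
        calc m = ∫⁻ x, (sliver n ε).indicator (fun _ => (1 : ℝ≥0∞)) x ∂(rho (Fin (n + 2))) := by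
              rw [lintegral_indicator_const (measurableSet_sliver ε), one_mul]
          _ ≤ _ := lintegral_mono (one_le_enorm_sq_T_sub_T ε hε)
      have hm1 : m ≤ 1 := prob_le_one
      have hm2 : ENNReal.ofReal (ε / 16) ≤ m := rho_sliver_ge ε hε hε'
      have hmtop : m ≠ ∞ := measure_ne_top _ _
      have ht : m = ENNReal.ofReal m.toReal := (ENNReal.ofReal_toReal hmtop).symm
      have ht1 : ε / 16 ≤ m.toReal := by
        have := ENNReal.toReal_mono hmtop hm2
        rwa [ENNReal.toReal_ofReal (by positivity)] at this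
      have ht2 : m.toReal ≤ 1 := by
        have := ENNReal.toReal_mono ENNReal.one_ne_top hm1
        simpa using this
      have hreal := hineq m.toReal ht1 ht2
      have hαpos : 0 ≤ α := by linarith
      calc (C : ℝ≥0∞) * quadCost ((rho (Fin (n + 2))).map (fun x => (T n ε x, G n ε x))) ^ α
          ≤ (C : ℝ≥0∞) * (ENNReal.ofReal (4 * ε ^ 2) * m) ^ α :=
            mul_le_mul_right (ENNReal.rpow_le_rpow hcost hαpos) _
        _ = ENNReal.ofReal (C * (4 * ε ^ 2 * m.toReal) ^ α) := by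
            rw [ht, ← ENNReal.ofReal_mul (by positivity),
              ENNReal.ofReal_rpow_of_nonneg (by positivity) hαpos,
              ← ENNReal.ofReal_coe_nnreal, ← ENNReal.ofReal_mul C.coe_nonneg,
              ENNReal.toReal_ofReal (by positivity)]
        _ < ENNReal.ofReal m.toReal :=
            (ENNReal.ofReal_lt_ofReal_iff (by linarith)).2 hreal
        _ = m := ht.symm
        _ ≤ _ := hlow

end Crest.Agent.Helper69.OT
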