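import Crest.Agent.Helper69.OT.Cert
import Crest.Agent.Helper69.OT.Cube

/-!
# The three-valued sliver maps on the cube (helper69)

`tmap n s a` takes the value `a` on the sliver `|x 0| < s * x 1`, `e0` on the rest of the half
space `0 ≤ x 0` and `-e0` elsewhere.  Push-forward formula, three-atomicity, and lower bounds for
the `rho`-measures of the three cells.
-/

set_option autoImplicit false
set_option linter.unusedSectionVars false

open MeasureTheory
open scoped ENNReal NNReal
open Crest.AnalysisR.OT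

namespace Crest.Agent.Helper69.OT

variable {n : ℕ}

/-- first basis vector -/
noncomputable def e0 (n : ℕ) : EuclideanSpace ℝ (Fin (n + 2)) := EuclideanSpace.single 0 1

/-- second basis vector -/
noncomputable def e1 (n : ℕ) : EuclideanSpace ℝ (Fin (n + 2)) := EuclideanSpace.single 1 1

@[simp] theorem e0_zero : (e0 n) 0 = 1 := by simp [e0]
@[simp] theorem e0_one : (e0 n) 1 = 0 := by simp [e0]
@[simp] theorem e1_zero : (e1 n) 0 = 0 := by simp [e1]
@[simp] theorem e1_one : (e1 n) 1 = 1 := by simp [e1]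

theorem e0_apply (i : Fin (n + 2)) : (e0 n) i = if i = 0 then 1 else 0 := by simp [e0]
theorem e1_apply (i : Fin (n + 2)) : (e1 n) i = if i = 1 then 1 else 0 := by simp [e1]

@[simp] theorem norm_e0 : ‖e0 n‖ = 1 := by simp [e0]
@[simp] theorem norm_e1 : ‖e1 n‖ = 1 := by simp [e1]

@[simp] theorem inner_e0 (x : EuclideanSpace ℝ (Fin (n + 2))) : inner ℝ x (e0 n) = x 0 := by
  simp [e0, EuclideanSpace.inner_single_right]

@[simp] theorem inner_e1 (x : EuclideanSpace ℝ (Fin (n + 2))) : inner ℝ x (e1 n) = x 1 := by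
  simp [e1, EuclideanSpace.inner_single_right]

theorem measurable_coord (i : Fin (n + 2)) :
    Measurable (fun x : EuclideanSpace ℝ (Fin (n + 2)) => x i) := by fun_prop

/-- the sliver `|x 0| < s * x 1` -/
def sliver (n : ℕ) (s : ℝ) : Set (EuclideanSpace ℝ (Fin (n + 2))) := {x | |x 0| < s * x 1}

/-- the half space `0 ≤ x 0` -/
def halfPos (n : ℕ) : Set (EuclideanSpace ℝ (Fin (n + 2))) := {x | 0 ≤ x 0}

theorem measurableSet_sliver (s : ℝ) : MeasurableSet (sliver n s) :=
  measurableSet_lt (measurable_coord 0).abs ((measurable_coord 1).const_mul s)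

theorem measurableSet_halfPos : MeasurableSet (halfPos n) :=
  measurableSet_le measurable_const (measurable_coord 0)

open Classical in
/-- The three-valued map: `a` on the sliver, `e0` on the rest of `0 ≤ x 0`, `-e0` elsewhere. -/
noncomputable def tmap (n : ℕ) (s : ℝ) (a : EuclideanSpace ℝ (Fin (n + 2)))
    (x : EuclideanSpace ℝ (Fin (n + 2))) : EuclideanSpace ℝ (Fin (n + 2)) :=
  if x ∈ sliver n s then a else if x ∈ halfPos n then e0 n else - e0 n

theorem measurable_tmap (s : ℝ) (a : EuclideanSpace ℝ (Fin (n + 2))) : Measurable (tmap n s a) := by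
  classical
  exact Measurable.ite (measurableSet_sliver s) measurable_const
    (Measurable.ite measurableSet_halfPos measurable_const measurable_const)

theorem tmap_mem (s : ℝ) (a x : EuclideanSpace ℝ (Fin (n + 2))) :
    tmap n s a x ∈ ({a, e0 n, - e0 n} : Set (EuclideanSpace ℝ (Fin (n + 2)))) := by
  unfold tmap
  split_ifs <;> simp

theorem map_ite_const {α β : Type*} [MeasurableSpace α] [MeasurableSpace β] (ρ : Measure α)
    {A : Set α} (hA : MeasurableSet A) [DecidablePred (· ∈ A)] (y : β) {g : α → β}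
    (hg : Measurable g) :
    ρ.map (fun x => if x ∈ A then y else g x) = ρ A • Measure.dirac y + (ρ.restrict Aᶜ).map g := by
  have hf : Measurable (fun x => if x ∈ A then y else g x) :=
    Measurable.ite hA measurable_const hg
  conv_lhs => rw [← Measure.restrict_add_restrict_compl (μ := ρ) hA]
  rw [Measure.map_add _ _ hf]
  congr 1
  · have : (ρ.restrict A).map (fun x => if x ∈ A then y else g x)
        = (ρ.restrict A).map (fun _ => y) := by
      apply Measure.map_congr
      filter_upwards [ae_restrict_mem hA] with x hx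
      simp [hx]
    rw [this, Measure.map_const, Measure.restrict_apply_univ]
  · apply Measure.map_congr
    filter_upwards [ae_restrict_mem hA.compl] with x hx
    simp [show x ∉ A from hx]

theorem map_tmap (ρ : Measure (EuclideanSpace ℝ (Fin (n + 2)))) (s : ℝ)
    (a : EuclideanSpace ℝ (Fin (n + 2))) :
    ρ.map (tmap n s a) = ρ (sliver n s) • Measure.dirac a
      + (ρ (halfPos n ∩ (sliver n s)ᶜ) • Measure.dirac (e0 n)
        + ρ ((halfPos n)ᶜ ∩ (sliver n s)ᶜ) • Measure.dirac (- e0 n)) := by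
  classical
  have h1 := map_ite_const ρ (measurableSet_sliver (n := n) s) a
    (g := fun x => if x ∈ halfPos n then e0 n else - e0 n)
    (Measurable.ite measurableSet_halfPos measurable_const measurable_const)
  have h2 := map_ite_const (ρ.restrict (sliver n s)ᶜ) (measurableSet_halfPos (n := n)) (e0 n)
    (g := fun _ => - e0 n) measurable_const
  have h3 : ρ.map (tmap n s a) = ρ.map (fun x => if x ∈ sliver n s then a
      else if x ∈ halfPos n then e0 n else - e0 n) := rfl
  rw [h3, h1, h2, Measure.restrict_apply measurableSet_halfPos,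
    Measure.restrict_restrict measurableSet_halfPos.compl, Measure.map_const,
    Measure.restrict_apply_univ]

theorem e0_ne_neg_e0 : e0 n ≠ - e0 n := by
  intro h
  have := congrArg (fun v : EuclideanSpace ℝ (Fin (n + 2)) => v 0) h
  simp at this
  linarith

/-- A measure of the form of `map_tmap` with positive finite weights is three-atomic. -/
theorem isThreeAtomic_of_weights (a : EuclideanSpace ℝ (Fin (n + 2))) (ha : a 0 = 0)
    (w₁ w₂ w₃ : ℝ≥0∞) (h₁ : w₁ ≠ 0) (h₂ : w₂ ≠ 0) (h₃ : w₃ ≠ 0)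
    (h₁' : w₁ ≠ ∞) (h₂' : w₂ ≠ ∞) (h₃' : w₃ ≠ ∞) :
    IsThreeAtomic (w₁ • Measure.dirac a + (w₂ • Measure.dirac (e0 n)
      + w₃ • Measure.dirac (- e0 n))) := by
  have ha0 : a ≠ e0 n := by
    intro h
    have := congrArg (fun v : EuclideanSpace ℝ (Fin (n + 2)) => v 0) h
    simp [ha] at this
  have ha1 : a ≠ - e0 n := by
    intro h
    have := congrArg (fun v : EuclideanSpace ℝ (Fin (n + 2)) => v 0) h
    simp [ha] at this
  refine ⟨![a, e0 n, - e0 n], ?_, ![w₁.toReal, w₂.toReal, w₃.toReal], ?_, ?_⟩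
  · intro i j hij
    fin_cases i <;> fin_cases j <;> simp at hij ⊢
    · exact absurd hij ha0
    · exact absurd hij ha1
    · exact absurd hij.symm ha0
    · exact absurd hij e0_ne_neg_e0
    · exact absurd hij.symm ha1
    · exact absurd hij.symm e0_ne_neg_e0
  · intro i
    fin_cases i
    · exact ENNReal.toReal_pos h₁ h₁'
    · exact ENNReal.toReal_pos h₂ h₂'
    · exact ENNReal.toReal_pos h₃ h₃'
  · simp [Fin.sum_univ_three, ENNReal.ofReal_toReal h₁', ENNReal.ofReal_toReal h₂',
      ENNReal.ofReal_toReal h₃', add_assoc]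



/-- lower corner of the box inscribed in the sliver -/
noncomputable def boxA (n : ℕ) (ε : ℝ) : Fin (n + 2) → ℝ :=
  Fin.cons (-(ε / 4)) (Fin.cons (1 / 2) (fun _ => -1))

/-- upper corner of the box inscribed in the sliver -/
noncomputable def boxB (n : ℕ) (ε : ℝ) : Fin (n + 2) → ℝ :=
  Fin.cons (ε / 4) (Fin.cons 1 (fun _ => 1))

theorem boxA_ge (ε : ℝ) (hε : 0 < ε) (hε' : ε ≤ 1 / 2) (i : Fin (n + 2)) : -1 ≤ boxA n ε i := by
  unfold boxA
  refine Fin.cases ?_ (fun j => Fin.cases ?_ (fun k => ?_) j) i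
  · simp; linarith
  · simp; norm_num
  · simp

theorem boxB_le (ε : ℝ) (hε : 0 < ε) (hε' : ε ≤ 1 / 2) (i : Fin (n + 2)) : boxB n ε i ≤ 1 := by
  unfold boxB
  refine Fin.cases ?_ (fun j => Fin.cases ?_ (fun k => ?_) j) i
  · simp; linarith
  · simp
  · simp

theorem rho_boxAB (ε : ℝ) (hε : 0 < ε) (hε' : ε ≤ 1 / 2) :
    rho (Fin (n + 2)) (box (boxA n ε) (boxB n ε)) = ENNReal.ofReal (ε / 16) := by
  rw [rho_box (boxA_ge ε hε hε') (boxB_le ε hε hε'), Fin.prod_univ_succ, Fin.prod_univ_succ]
  simp only [boxA, boxB, Fin.cons_zero, Fin.cons_succ, Finset.prod_const, Finset.card_univ,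
    Fintype.card_fin]
  have h2 : ENNReal.ofReal (1 - -1) = 2 := by norm_num
  have h3 : ((2 : ℝ≥0∞) ^ (n + 2))⁻¹ = ENNReal.ofReal (((2 : ℝ) ^ (n + 2))⁻¹) := by
    rw [ENNReal.ofReal_inv_of_pos (by positivity), ENNReal.ofReal_pow (by norm_num)]
    norm_num
  have h4 : (2 : ℝ≥0∞) ^ n = ENNReal.ofReal ((2 : ℝ) ^ n) := by
    rw [ENNReal.ofReal_pow (by norm_num)]
    norm_num
  rw [h2, h3, h4, ← ENNReal.ofReal_mul (by norm_num), ← ENNReal.ofReal_mul (by linarith),
    ← ENNReal.ofReal_mul (by positivity)]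
  congr 1
  field_simp
  ring


theorem box_subset_sliver (ε : ℝ) (hε : 0 < ε) :
    box (boxA n ε) (boxB n ε) ⊆ sliver n ε := by
  intro x hx
  have h0 := hx 0
  have h1 := hx 1
  simp only [boxA, boxB, Fin.cons_zero] at h0
  have h1' : (1 : ℝ) / 2 ≤ x 1 := by
    have := (hx (Fin.succ 0)).1
    simpa [boxA] using this
  show |x 0| < ε * x 1
  have : |x 0| ≤ ε / 4 := abs_le.2 ⟨h0.1, h0.2⟩
  nlinarith

theorem rho_sliver_ge (ε : ℝ) (hε : 0 < ε) (hε' : ε ≤ 1 / 2) :
    ENNReal.ofReal (ε / 16) ≤ rho (Fin (n + 2)) (sliver n ε) := by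
  rw [← rho_boxAB (n := n) ε hε hε']
  exact measure_mono (box_subset_sliver ε hε)

theorem rho_sliver_ne_zero (ε : ℝ) (hε : 0 < ε) (hε' : ε ≤ 1 / 2) :
    rho (Fin (n + 2)) (sliver n ε) ≠ 0 := by
  intro h
  have := rho_sliver_ge (n := n) ε hε hε'
  rw [h] at this
  have h2 : 0 < ENNReal.ofReal (ε / 16) := ENNReal.ofReal_pos.2 (by linarith)
  exact absurd this (not_le.2 h2)

/-- lower corner of the box inscribed in the `e0` cell -/
noncomputable def boxP (n : ℕ) : Fin (n + 2) → ℝ := Fin.cons (1 / 2) (fun _ => -1)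

/-- upper corner of the box inscribed in the `-e0` cell -/
noncomputable def boxM (n : ℕ) : Fin (n + 2) → ℝ := Fin.cons (-(1 / 2)) (fun _ => 1)

theorem rho_box_ne_zero {ι : Type*} [Fintype ι] {a b : ι → ℝ} (ha : ∀ i, -1 ≤ a i)
    (hb : ∀ i, b i ≤ 1) (hab : ∀ i, a i < b i) : rho ι (box a b) ≠ 0 := by
  rw [rho_box ha hb]
  refine mul_ne_zero (ENNReal.inv_ne_zero.2 (ENNReal.pow_ne_top ENNReal.ofNat_ne_top)) ?_
  refine Finset.prod_ne_zero_iff.2 fun i _ => ?_
  exact (ENNReal.ofReal_pos.2 (sub_pos.2 (hab i))).ne'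

theorem rho_cellP_ne_zero (s : ℝ) (hs : |s| ≤ 1 / 2) :
    rho (Fin (n + 2)) (halfPos n ∩ (sliver n s)ᶜ) ≠ 0 := by
  have hsub : box (boxP n) (fun _ => 1) ⊆ halfPos n ∩ (sliver n s)ᶜ := by
    intro x hx
    have h0 : (1 : ℝ) / 2 ≤ x 0 := by
      have := (hx 0).1
      simpa [boxP] using this
    have h1 : |x 1| ≤ 1 := by
      have hc : x ∈ cube (Fin (n + 2)) := by
        rw [cube_eq_box]
        intro i
        refine ⟨?_, (hx i).2⟩
        refine le_trans ?_ (hx i).1
        unfold boxP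
        refine Fin.cases ?_ (fun j => ?_) i
        · simp; norm_num
        · simp
      exact hc 1
    refine ⟨show (0 : ℝ) ≤ x 0 by linarith, ?_⟩
    show ¬ (|x 0| < s * x 1)
    rw [not_lt, abs_of_nonneg (by linarith : (0 : ℝ) ≤ x 0)]
    have h2 : s * x 1 ≤ |s| * |x 1| := by
      rw [← abs_mul]; exact le_abs_self _
    have h3 : |s| * |x 1| ≤ 1 / 2 * 1 := mul_le_mul hs h1 (abs_nonneg _) (by norm_num)
    linarith
  have hpos : rho (Fin (n + 2)) (box (boxP n) (fun _ => 1)) ≠ 0 := by
    apply rho_box_ne_zero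
    · intro i
      unfold boxP
      refine Fin.cases ?_ (fun j => ?_) i
      · simp; norm_num
      · simp
    · intro i; exact le_rfl
    · intro i
      unfold boxP
      refine Fin.cases ?_ (fun j => ?_) i
      · simp; norm_num
      · simp
  intro h
  exact hpos (measure_mono_null hsub h)

theorem rho_cellM_ne_zero (s : ℝ) (hs : |s| ≤ 1 / 2) :
    rho (Fin (n + 2)) ((halfPos n)ᶜ ∩ (sliver n s)ᶜ) ≠ 0 := by
  have hsub : box (fun _ => -1) (boxM n) ⊆ (halfPos n)ᶜ ∩ (sliver n s)ᶜ := by
    intro x hx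
    have h0 : x 0 ≤ -(1 / 2) := by
      have := (hx 0).2
      simpa [boxM] using this
    have h1 : |x 1| ≤ 1 := by
      have hc : x ∈ cube (Fin (n + 2)) := by
        rw [cube_eq_box]
        intro i
        refine ⟨(hx i).1, ?_⟩
        refine le_trans (hx i).2 ?_
        unfold boxM
        refine Fin.cases ?_ (fun j => ?_) i
        · simp; norm_num
        · simp
      exact hc 1
    refine ⟨show ¬ ((0 : ℝ) ≤ x 0) by rw [not_le]; linarith, ?_⟩
    show ¬ (|x 0| < s * x 1)
    rw [not_lt, abs_of_neg (by linarith : x 0 < 0)]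
    have h2 : s * x 1 ≤ |s| * |x 1| := by
      rw [← abs_mul]; exact le_abs_self _
    have h3 : |s| * |x 1| ≤ 1 / 2 * 1 := mul_le_mul hs h1 (abs_nonneg _) (by norm_num)
    linarith
  have hpos : rho (Fin (n + 2)) (box (fun _ => -1) (boxM n)) ≠ 0 := by
    apply rho_box_ne_zero
    · intro i; exact le_rfl
    · intro i
      unfold boxM
      refine Fin.cases ?_ (fun j => ?_) i
      · simp; norm_num
      · simp
    · intro i
      unfold boxM
      refine Fin.cases ?_ (fun j => ?_) i
      · simp; norm_num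
      · simp
  intro h
  exact hpos (measure_mono_null hsub h)

end Crest.Agent.Helper69.OT
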